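import Vale.Agent.P237.Petty.Cor.Mid50.Poly

/-!
# P237: constants of the cell from `21 / (p + 2)` to `1`, middle orders
-/

namespace Vale.Agent.P237.Petty.Cor.Mid50.Cell3

/-- The piece on `[0, 9 / 50]`. -/
def piece1 : Piece :=
  ⟨(0), (9 / 50), (1 / 49), (9999 / 10000), (2501 / 5000), (10001 / 10000),
    (5003 / 10000), (29691 / 10000), (51867 / 5000), (0), (34417 / 10000), true⟩

/-- The piece on `[9 / 50, 7 / 20]`. -/
def piece2 : Piece :=
  ⟨(9 / 50), (7 / 20), (1 / 49), (9999 / 10000), (501 / 1000), (10001 / 10000),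
    (5011 / 10000), (1953 / 625), (41771 / 10000), (0), (34417 / 10000), true⟩

/-- The piece on `[7 / 20, 63 / 100]`. -/
def piece3 : Piece :=
  ⟨(7 / 20), (63 / 100), (1 / 49), (9999 / 10000), (1007 / 2000), (10001 / 10000),
    (1259 / 2500), (32021 / 10000), (12209 / 5000), (7 / 20), (16473 / 5000), true⟩

/-- The piece on `[63 / 100, 23 / 25]`. -/
def piece4 : Piece :=
  ⟨(63 / 100), (23 / 25), (1 / 49), (9999 / 10000), (5081 / 10000), (1),
    (2541 / 5000), (1749 / 500), (16919 / 10000), (7 / 20), (16473 / 5000), true⟩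

/-- The piece on `[23 / 25, 6 / 5]`. -/
def piece5 : Piece :=
  ⟨(23 / 25), (6 / 5), (1 / 49), (4999 / 5000), (2573 / 5000), (1),
    (5147 / 10000), (7647 / 2000), (523 / 400), (7 / 20), (16473 / 5000), true⟩

/-- The piece on `[6 / 5, 29 / 20]`. -/
def piece6 : Piece :=
  ⟨(6 / 5), (29 / 20), (1 / 49), (2499 / 2500), (653 / 1250), (4999 / 5000),
    (209 / 400), (20739 / 5000), (433 / 400), (7 / 20), (16473 / 5000), true⟩

/-- The piece on `[29 / 20, 17 / 10]`. -/
def piece7 : Piece :=
  ⟨(29 / 20), (17 / 10), (1 / 49), (9993 / 10000), (5317 / 10000), (2499 / 2500),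
    (5319 / 10000), (44697 / 10000), (9319 / 10000), (7 / 20), (16473 / 5000), true⟩

/-- The piece on `[17 / 10, 19 / 10]`. -/
def piece8 : Piece :=
  ⟨(17 / 10), (19 / 10), (1 / 49), (9989 / 10000), (5413 / 10000), (1249 / 1250),
    (677 / 1250), (9539 / 2000), (1657 / 2000), (7 / 20), (16473 / 5000), true⟩

/-- The piece on `[19 / 10, 2]`. -/
def piece9 : Piece :=
  ⟨(19 / 10), (2), (1 / 49), (1997 / 2000), (5479 / 10000), (2497 / 2500),
    (2741 / 5000), (2487 / 500), (1543 / 2000), (7 / 20), (16473 / 5000), true⟩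

/-- The piece on `[2, 51 / 20]`. -/
def piece10 : Piece :=
  ⟨(2), (51 / 20), (1 / 49), (9967 / 10000), (5729 / 10000), (9977 / 10000),
    (5739 / 10000), (27169 / 5000), (3351 / 5000), (7 / 20), (16473 / 5000), false⟩

/-- The piece on `[51 / 20, 33 / 10]`. -/
def piece11 : Piece :=
  ⟨(51 / 20), (33 / 10), (1 / 49), (4949 / 5000), (1579 / 2500), (9929 / 10000),
    (127 / 200), (63813 / 10000), (2657 / 5000), (7 / 20), (16473 / 5000), false⟩

/-- The piece on `[33 / 10, 4]`. -/
def piece12 : Piece :=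
  ⟨(33 / 10), (4), (1 / 49), (9729 / 10000), (7241 / 10000), (9793 / 10000),
    (733 / 1000), (74717 / 10000), (4317 / 10000), (7 / 20), (16473 / 5000), false⟩

/-- The piece on `[4, 23 / 5]`. -/
def piece13 : Piece :=
  ⟨(4), (23 / 5), (1 / 49), (2351 / 2500), (2123 / 2500), (9513 / 10000),
    (8693 / 10000), (84733 / 10000), (3693 / 10000), (7 / 20), (16473 / 5000), false⟩

/-- The piece on `[23 / 5, 479 / 100]`. -/
def piece14 : Piece :=
  ⟨(23 / 5), (479 / 100), (1 / 49), (9123 / 10000), (9369 / 10000), (9223 / 10000),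
    (1199 / 1250), (11357 / 1250), (849 / 2500), (7 / 20), (16473 / 5000), false⟩

/-- The piece on `[479 / 100, 24 / 5]`. -/
def piece15 : Piece :=
  ⟨(479 / 100), (24 / 5), (1 / 49), (9047 / 10000), (2397 / 2500), (4567 / 5000),
    (4897 / 5000), (46209 / 5000), (208 / 625), (7 / 20), (16473 / 5000), false⟩

/-- The piece on `[24 / 5, 122 / 25]`. -/
def piece16 : Piece :=
  ⟨(24 / 5), (122 / 25), (1 / 49), (8979 / 10000), (4889 / 5000), (9079 / 10000),
    (10021 / 10000), (11641 / 1250), (1649 / 5000), (7 / 20), (16473 / 5000), false⟩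

/-- The piece on `[122 / 25, 99 / 20]`. -/
def piece17 : Piece :=
  ⟨(122 / 25), (99 / 20), (79 / 4000), (1791 / 2000), (1969 / 2000), (4523 / 5000),
    (10073 / 10000), (47159 / 5000), (3249 / 10000), (7 / 20), (16473 / 5000), false⟩

/-- The piece on `[99 / 20, 503 / 100]`. -/
def piece18 : Piece :=
  ⟨(99 / 20), (503 / 100), (77 / 4000), (557 / 625), (2491 / 2500), (9 / 10),
    (1019 / 1000), (47747 / 5000), (1601 / 5000), (7 / 20), (16473 / 5000), false⟩

/-- The piece on `[503 / 100, 511 / 100]`. -/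
def piece19 : Piece :=
  ⟨(503 / 100), (511 / 100), (3 / 160), (554 / 625), (2523 / 2500), (2237 / 2500),
    (5157 / 5000), (96759 / 10000), (3153 / 10000), (7 / 20), (16473 / 5000), false⟩

/-- The piece on `[511 / 100, 26 / 5]`. -/
def piece20 : Piece :=
  ⟨(511 / 100), (26 / 5), (9 / 500), (221 / 250), (10157 / 10000), (1783 / 2000),
    (5181 / 5000), (24523 / 2500), (3103 / 10000), (7 / 20), (16473 / 5000), false⟩

/-- The piece on `[26 / 5, 132 / 25]`. -/
def piece21 : Piece :=
  ⟨(26 / 5), (132 / 25), (7 / 400), (879 / 1000), (10289 / 10000), (443 / 500),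
    (10483 / 10000), (99443 / 10000), (1527 / 5000), (7 / 20), (16473 / 5000), false⟩

/-- The piece on `[132 / 25, 134 / 25]`. -/
def piece22 : Piece :=
  ⟨(132 / 25), (134 / 25), (17 / 1000), (4373 / 5000), (10403 / 10000), (881 / 1000),
    (2647 / 2500), (50347 / 5000), (301 / 1000), (7 / 20), (16473 / 5000), false⟩

/-- The piece on `[134 / 25, 109 / 20]`. -/
def piece23 : Piece :=
  ⟨(134 / 25), (109 / 20), (33 / 2000), (4347 / 5000), (1317 / 1250), (4377 / 5000),
    (5357 / 5000), (102043 / 10000), (741 / 2500), (7 / 20), (16473 / 5000), false⟩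

/-- The piece on `[109 / 20, 277 / 50]`. -/
def piece24 : Piece :=
  ⟨(109 / 20), (277 / 50), (2 / 125), (8637 / 10000), (267 / 250), (2173 / 2500),
    (5423 / 5000), (51749 / 5000), (729 / 2500), (7 / 20), (16473 / 5000), false⟩

/-- The piece on `[277 / 50, 281 / 50]`. -/
def piece25 : Piece :=
  ⟨(277 / 50), (281 / 50), (31 / 2000), (8591 / 10000), (2159 / 2000), (8639 / 10000),
    (2189 / 2000), (26211 / 2500), (2873 / 10000), (7 / 20), (16473 / 5000), false⟩

/-- The piece on `[281 / 50, 571 / 100]`. -/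
def piece26 : Piece :=
  ⟨(281 / 50), (571 / 100), (3 / 200), (534 / 625), (682 / 625), (8587 / 10000),
    (221 / 200), (106199 / 10000), (2831 / 10000), (7 / 20), (16473 / 5000), false⟩

/-- The piece on `[571 / 100, 581 / 100]`. -/
def piece27 : Piece :=
  ⟨(571 / 100), (581 / 100), (29 / 2000), (4241 / 5000), (11063 / 10000), (213 / 250),
    (2797 / 2500), (107697 / 10000), (1393 / 5000), (7 / 20), (16473 / 5000), false⟩

/-- The piece on `[581 / 100, 59 / 10]`. -/
def piece28 : Piece :=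
  ⟨(581 / 100), (59 / 10), (7 / 500), (4213 / 5000), (28 / 25), (8457 / 10000),
    (11307 / 10000), (109211 / 10000), (1371 / 5000), (7 / 20), (16473 / 5000), false⟩

/-- The piece on `[59 / 10, 599 / 100]`. -/
def piece29 : Piece :=
  ⟨(59 / 10), (599 / 100), (11 / 800), (8323 / 10000), (2289 / 2000), (8351 / 10000),
    (11551 / 10000), (110631 / 10000), (1351 / 5000), (7 / 20), (16473 / 5000), false⟩

/-- The piece on `[599 / 100, 609 / 100]`. -/
def piece30 : Piece :=
  ⟨(599 / 100), (609 / 100), (53 / 4000), (1653 / 2000), (11581 / 10000), (518 / 625),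
    (1167 / 1000), (11217 / 1000), (133 / 500), (7 / 20), (16473 / 5000), false⟩

/-- The piece on `[609 / 100, 619 / 100]`. -/
def piece31 : Piece :=
  ⟨(609 / 100), (619 / 100), (51 / 4000), (4101 / 5000), (5863 / 5000), (8221 / 10000),
    (2949 / 2500), (113759 / 10000), (1309 / 5000), (7 / 20), (16473 / 5000), false⟩

/-- The piece on `[619 / 100, 629 / 100]`. -/
def piece32 : Piece :=
  ⟨(619 / 100), (629 / 100), (1 / 80), (4037 / 5000), (601 / 500), (8089 / 10000),
    (6043 / 5000), (115361 / 10000), (2577 / 10000), (7 / 20), (16473 / 5000), false⟩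

/-- The piece on `[629 / 100, 639 / 100]`. -/
def piece33 : Piece :=
  ⟨(629 / 100), (639 / 100), (3 / 250), (4007 / 5000), (12153 / 10000), (321 / 400),
    (12201 / 10000), (7311 / 625), (2537 / 10000), (7 / 20), (16473 / 5000), false⟩

/-- The piece on `[639 / 100, 649 / 100]`. -/
def piece34 : Piece :=
  ⟨(639 / 100), (649 / 100), (47 / 4000), (7879 / 10000), (6227 / 5000), (7887 / 10000),
    (2499 / 2000), (118559 / 10000), (2499 / 10000), (7 / 20), (16473 / 5000), false⟩

/-- The piece on `[649 / 100, 659 / 100]`. -/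
def piece35 : Piece :=
  ⟨(649 / 100), (659 / 100), (9 / 800), (313 / 400), (12571 / 10000), (783 / 1000),
    (2519 / 2000), (7512 / 625), (2461 / 10000), (7 / 20), (16473 / 5000), false⟩

/-- The piece on `[659 / 100, 67 / 10]`. -/
def piece36 : Piece :=
  ⟨(659 / 100), (67 / 10), (11 / 1000), (7671 / 10000), (6451 / 5000), (307 / 400),
    (12921 / 10000), (121877 / 10000), (2423 / 10000), (7 / 20), (16473 / 5000), false⟩

/-- The piece on `[67 / 10, 679 / 100]`. -/
def piece37 : Piece :=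
  ⟨(67 / 10), (679 / 100), (21 / 2000), (3813 / 5000), (6499 / 5000), (1907 / 2500),
    (3251 / 2500), (61739 / 5000), (597 / 2500), (7 / 20), (16473 / 5000), false⟩

/-- The constants. -/
def data : Data where
  mlo := 49
  mhi := 98
  hk := (12661 / 10000)
  g := (67 / 200)
  n0 := (961 / 500)
  n1 := (11 / 20)
  g1 := (-143 / 100)
  a := (137 / 500)
  l0 := (-5883 / 1000)
  l1 := (1481 / 250)
  phi := (22 / 25)
  v1 := (51 / 50)
  z2 := (47 / 100)
  ev := (27183 / 10000)
  pieces := [piece1, piece2, piece3, piece4, piece5, piece6, piece7, piece8, piece9, piece10,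
    piece11, piece12, piece13, piece14, piece15, piece16, piece17, piece18, piece19, piece20,
    piece21, piece22, piece23, piece24, piece25, piece26, piece27, piece28, piece29, piece30,
    piece31, piece32, piece33, piece34, piece35, piece36, piece37]
  terms := [⟨0, 0, (4931 / 1000)⟩, ⟨1, 0, (-9597 / 1000)⟩, ⟨2, 0, (4919 / 1000)⟩, ⟨3, 0, (-89 / 500)⟩,
    ⟨4, 0, (49 / 1000)⟩, ⟨5, 0, (-89 / 25000)⟩, ⟨2, 1, (1099 / 1000)⟩, ⟨3, 2, (7033 / 250)⟩,
    ⟨4, 3, (-6137 / 125)⟩, ⟨5, 3, (917 / 250)⟩]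

end Vale.Agent.P237.Petty.Cor.Mid50.Cell3
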