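import Vale.Agent.P237.Petty.Cor.Mid50.Cell
import Vale.Agent.P237.Petty.Cor.Mid50.Cell3.Pieces

/-!
# P237: the cell from `21 / (p + 2)` to `1`, for middle orders
-/

namespace Vale.Agent.P237.Petty.Cor.Mid50.Cell3

open P100.Bernstein

theorem good : Good data where
  ok := by decide +kernel
  checks P hP := by
    simp only [data, List.mem_cons, List.not_mem_nil, or_false] at hP
    rcases hP with rfl | rfl | rfl | rfl | rfl | rfl | rfl | rfl | rfl | rfl | rfl | rfl | rfl | rfl | rfl | rfl | rfl | rfl | rfl | rfl | rfl | rfl | rfl | rfl | rfl | rfl | rfl | rfl | rfl | rfl | rfl | rfl | rfl | rfl | rfl | rfl | rfl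
    exacts [checks1, checks2, checks3, checks4, checks5, checks6, checks7, checks8,
    checks9, checks10, checks11, checks12, checks13, checks14, checks15, checks16,
    checks17, checks18, checks19, checks20, checks21, checks22, checks23, checks24,
    checks25, checks26, checks27, checks28, checks29, checks30, checks31, checks32,
    checks33, checks34, checks35, checks36, checks37]

theorem outer : Outer data 21 21 where
  z2_ge := by decide +kernel
  w0_pos := by norm_num
  degree := by decide +kernel
  rest_pos := ⟨.leaf, by decide +kernel⟩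
  mean := by decide +kernel

theorem exp_le : Real.exp ((1 : ℚ) : ℝ) ≤ data.ev := by
  refine (Real.exp_bound' (n := 10) ?_ ?_ ?_).trans ?_ <;>
    norm_num [Finset.sum_range_succ, Nat.factorial, data]

/-- The bounds of the correlation excess from `21 / (p + 2)` to `1`. -/
theorem corCell {p : ℕ} (hp : 48 ≤ p) (hp' : p ≤ 97) :
    CorCell p (21 / ((p : ℝ) + 2)) (1) := by
  simpa using corCell_of_data good outer (by decide +kernel) exp_le (p := p)
    ⟨show 49 ≤ p + 1 by omega, show p + 1 ≤ 98 by omega, by decide, by decide⟩

end Vale.Agent.P237.Petty.Cor.Mid50.Cell3
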